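import Mathlib
import Crest.Prelude.Def_TwoAdicShift
import Crest.Agent.S0150Aux.Asm13
import Crest.Agent.S0150Aux.T11_37
import Crest.Agent.S0150Aux.T1_61
import Crest.Agent.S0150Aux.T1_2
import Crest.Agent.S0150Aux.T2_79
import Crest.Agent.S0150Aux.T3_61
import Crest.Agent.S0150Aux.Fib62
import Crest.Agent.S0150Aux.T4T10_61
import Crest.Agent.S0150Aux.T8cd5
import Crest.Agent.S0150Aux.Lat2
import Crest.Agent.S0150Aux.Erg15
import Crest.Agent.S0150Aux.T11c83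
import Crest.Agent.S0150Aux.T11b40
import Crest.Agent.S0150Aux.Key36

set_option autoImplicit false
open Crest.AnalysisR.TwoAdic MeasureTheory
attribute [local instance] Crest.AnalysisR.TwoAdic.borelTwoAdic Crest.AnalysisR.TwoAdic.borelSpace_twoAdic
open Crest Crest.AnalysisR Crest.AnalysisR.TwoAdic

namespace Crest.Agent.S0150Aux.Final40

/-- On L²(ℤ₂; ℓ²(ℤ)) (2-adic integers, Haar probability) measurable weights β_j > 0, b_j ∈ [0,1] give fibre shifts S_x δ_j = β_j(x) δ_{j+1} forming a bounded S and a contraction V commuting with S, acting along x ↦ x + 1 by V_x δ_j = b_j(x) δ_{j−1}, with: each S_x has exactly the tails, 0, ℓ²(ℤ) as closed invariant subspaces; ‖S‖ = e^{−10}, ‖Sⁿ‖ ≤ exp(−10⌊(n+1)²/4⌋); off a null set b_j > 0 and V_x maps each tail densely into the next lower one; S, V and bounded multipliers act transitively. -/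
theorem final :
    ∃ (β b : ℤ → ℤ_[2] → ℝ) (Sfib Vfib : ℤ_[2] → (seqHilbert →L[ℂ] seqHilbert))
      (S V : fibreSpace →L[ℂ] fibreSpace),
      (∀ j, Measurable (β j)) ∧ (∀ j x, 0 < β j x) ∧
      (∀ x j, Sfib x (basisVec j) = (β j x : ℂ) • basisVec (j + 1)) ∧
      (∀ f : fibreSpace, ∀ᵐ x ∂haarTwoAdic, (S f : ℤ_[2] → seqHilbert) x = Sfib x ((f : ℤ_[2] → seqHilbert) x)) ∧
      (∀ x, ∀ W : Submodule ℂ seqHilbert, IsClosed (W : Set seqHilbert) →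
        ((∀ v ∈ W, Sfib x v ∈ W) ↔ (W = ⊥ ∨ W = ⊤ ∨ ∃ h : ℤ, W = tailSpace h))) ∧
      S ≠ 0 ∧ ‖S‖ = Real.exp (-10) ∧
      (∀ n : ℕ, 1 ≤ n → ‖S ^ n‖ ≤ Real.exp (-10 * (((n + 1) ^ 2 / 4 : ℕ) : ℝ))) ∧
      ‖V‖ ≤ 1 ∧ V * S = S * V ∧
      (∀ j, Measurable (b j)) ∧ (∀ j x, 0 ≤ b j x ∧ b j x ≤ 1) ∧
      (∀ x j, Vfib x (basisVec j) = (b j x : ℂ) • basisVec (j - 1)) ∧
      (∀ f : fibreSpace, ∀ᵐ x ∂haarTwoAdic,
        (V f : ℤ_[2] → seqHilbert) (x + 1) = Vfib x ((f : ℤ_[2] → seqHilbert) x)) ∧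
      (∃ N : Set ℤ_[2], haarTwoAdic N = 0 ∧ ∀ x, x ∉ N →
        (∀ j, 0 < b j x) ∧
        (∀ h : ℤ, closure (Vfib x '' (tailSpace h : Set seqHilbert)) = (tailSpace (h - 1) : Set seqHilbert)) ∧
        closure (Set.range (Vfib x)) = Set.univ) ∧
      (∀ W : Submodule ℂ fibreSpace, IsClosed (W : Set fibreSpace) →
        (∀ f ∈ W, S f ∈ W) → (∀ f ∈ W, V f ∈ W) →
        (∀ g : ℤ_[2] → ℂ, Measurable g → (∃ C : ℝ, ∀ x, ‖g x‖ ≤ C) →
          ∀ f ∈ W, ∀ f' : fibreSpace,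
            (∀ᵐ x ∂haarTwoAdic, (f' : ℤ_[2] → seqHilbert) x = g x • (f : ℤ_[2] → seqHilbert) x) → f' ∈ W) →
        W = ⊥ ∨ W = ⊤) := by
  have hkey : ∀ x : ℤ_[2], Crest.Agent.S0150Aux.Lat2.KeyProp (Crest.Agent.S0150Aux.D13.AA x) :=
    fun x w u hw hu ho j0 k0 h h1 h2 =>
      Crest.Agent.S0150Aux.Key36.key (Crest.Agent.S0150Aux.D13.al x) (Crest.Agent.S0150Aux.D13.AA x)
        (Crest.Agent.S0150Aux.T1_61.AA_succ x) 0 (Crest.Agent.S0150Aux.T1_61.al_grow x) 1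
        (Crest.Agent.S0150Aux.T1_61.al_mono_right x) (Crest.Agent.S0150Aux.T1_61.al_mono_left x)
        w u hw hu ho h h1 h2
  exact Crest.Agent.S0150Aux.Asm13.assemble
    Crest.Agent.S0150Aux.T1_61.measurable_bet
    Crest.Agent.S0150Aux.T1_61.bet_pos
    Crest.Agent.S0150Aux.T1_61.bet_le
    (Crest.Agent.S0150Aux.T3_61.measurable_bw Crest.Agent.S0150Aux.T1_61.measurable_aw)
    Crest.Agent.S0150Aux.T3_61.bw_nonneg
    Crest.Agent.S0150Aux.T3_61.bw_le_one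
    Crest.Agent.S0150Aux.T3_61.intertwine
    (fun x hx => Crest.Agent.S0150Aux.T3_61.bw_pos x (Crest.Agent.S0150Aux.T2_79.aw_shift x hx))
    Crest.Agent.S0150Aux.Erg15.range_intCast_null
    Crest.Agent.S0150Aux.T61.exists_wshift
    Crest.Agent.S0150Aux.Fib62.exists_lift
    Crest.Agent.S0150Aux.Fib62.aesm_field
    Crest.Agent.S0150Aux.Fib62.exists_transl
    Crest.Agent.S0150Aux.Fib62.norm_le_of_fibre
    Crest.Agent.S0150Aux.Fib62.pow_fibre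
    Crest.Agent.S0150Aux.T8cd5.norm_pow_fib
    Crest.Agent.S0150Aux.T8cd5.norm_S_ge
    Crest.Agent.S0150Aux.Fib62.comm_of_fibre
    Crest.Agent.S0150Aux.T61.closures
    (fun x T hT W hW => Crest.Agent.S0150Aux.Lat2.lat_iff T (Crest.Agent.S0150Aux.D13.al x)
      (Crest.Agent.S0150Aux.D13.AA x) (Crest.Agent.S0150Aux.T1_61.AA_succ x) hT (hkey x) W hW)
    (fun x T hT w u h => Crest.Agent.S0150Aux.T1_2.noCross_vec T (Crest.Agent.S0150Aux.D13.al x)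
      (Crest.Agent.S0150Aux.D13.AA x) (Crest.Agent.S0150Aux.T1_61.AA_succ x) hT (hkey x) w u h)
    (fun S V Sfib Vfib hS hV hVc hb hnc W hWc hWS hWV hWm =>
      Crest.Agent.S0150Aux.T11_37.main S V Sfib
        (Crest.Agent.S0150Aux.Fib62.pow_fibre S Sfib hS)
        (Crest.Agent.S0150Aux.T11b40.Vpow_fibre V Vfib hV hVc hb)
        Crest.Agent.S0150Aux.T11c83.hit hnc W hWc hWS hWV hWm)

end Crest.Agent.S0150Aux.Final40
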